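import Mathlib

/-!
Shared definitions for the sixth case of Foulkes' conjecture.
-/

namespace Vale.Agent.P181

open Module

/-! ### Unitary modules over `gl n` -/

section Unitary

variable {n : ℕ} {T : Type*} [NormedAddCommGroup T] [InnerProductSpace ℂ T]

/-- weight space -/
def wtSp (E : Fin n → Fin n → T →ₗ[ℂ] T) (μ : Fin n →₀ ℕ) : Submodule ℂ T :=
  ⨅ a, Module.End.eigenspace (E a a) (μ a : ℂ)

/-- `E` is a unitary representation of `gl n` with polynomial weights -/
structure IsUGL (E : Fin n → Fin n → T →ₗ[ℂ] T) : Prop where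
  comm : ∀ a b c d, E a b * E c d - E c d * E a b
    = (if b = c then E a d else 0) - (if d = a then E c b else 0)
  adj : ∀ a b x y, inner ℂ (E a b x) y = inner ℂ x (E b a y)
  span : ⨆ μ, wtSp E μ = ⊤

/-- invariant subspace -/
def InvSp (E : Fin n → Fin n → T →ₗ[ℂ] T) (W : Submodule ℂ T) : Prop :=
  ∀ a b, ∀ x ∈ W, E a b x ∈ W

/-- highest weight vectors of weight `l` in `W` -/
def hwSp (E : Fin n → Fin n → T →ₗ[ℂ] T) (W : Submodule ℂ T) (l : Fin n →₀ ℕ) : Submodule ℂ T :=
  W ⊓ wtSp E l ⊓ ⨅ (a : Fin n) (b : Fin n) (_ : a < b), LinearMap.ker (E a b)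

end Unitary

/-! ### Symmetric polynomials -/

section Poly

open MvPolynomial

/-- the staircase `(n-1, …, 1, 0)` -/
noncomputable def rho (n : ℕ) : Fin n →₀ ℕ := Finsupp.equivFunOnFinite.symm fun i => n - 1 - i

/-- the Vandermonde product, with leading term `x ^ rho n` -/
noncomputable def vand (n : ℕ) : MvPolynomial (Fin n) ℤ :=
  ∏ i : Fin n, ∏ j ∈ Finset.Ioi i, (X i - X j)

/-- complete homogeneous polynomial -/
noncomputable abbrev HH (n q : ℕ) : MvPolynomial (Fin n) ℤ := hsymm (Fin n) ℤ q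

/-- the plethysm `h_p[h_q]` in `n` variables -/
noncomputable def GG (n q p : ℕ) : MvPolynomial (Fin n) ℤ :=
  aeval (fun m : Sym (Fin n) q => (m.1.map (X : Fin n → MvPolynomial (Fin n) ℤ)).prod)
    (hsymm (Sym (Fin n) q) ℤ p)

/-- antisymmetric polynomial -/
def AntiSym {n : ℕ} (A : MvPolynomial (Fin n) ℤ) : Prop :=
  ∀ i j, i ≠ j → rename (Equiv.swap i j) A = -A

end Poly

/-! ### The polynomial model -/

section Model

open MvPolynomial

/-- monomials in the variables indexed by natural numbers -/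
abbrev Mon := ℕ →₀ ℕ

/-- polynomials in variables indexed by a label and a monomial -/
abbrev PM := MvPolynomial (ℕ × Mon) ℂ

/-- the operator `x_a ∂/∂x_b` extended as a derivation -/
noncomputable def pE (a b : ℕ) : Derivation ℂ PM PM :=
  mkDerivation ℂ fun v => (v.2 b : ℂ) • X (v.1, v.2 - Finsupp.single b 1 + Finsupp.single a 1)

/-- shape of a monomial of `PM`: how many factors have a given label and degree -/
noncomputable def shp (M : (ℕ × Mon) →₀ ℕ) : (ℕ × ℕ) →₀ ℕ :=
  M.mapDomain fun v => (v.1, v.2.degree)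

/-- weight of a monomial of `PM` -/
noncomputable def wgt (M : (ℕ × Mon) →₀ ℕ) : Mon := M.sum fun v c => c • v.2

/-- polynomials of a given shape and weight -/
noncomputable def pSp (s : (ℕ × ℕ) →₀ ℕ) (μ : Mon) : Submodule ℂ PM :=
  restrictSupport ℂ {M | shp M = s ∧ wgt M = μ}

/-- highest weight vectors of a given shape and weight -/
noncomputable def pHW (s : (ℕ × ℕ) →₀ ℕ) (μ : Mon) : Submodule ℂ PM :=
  pSp s μ ⊓ ⨅ (a : ℕ) (b : ℕ) (_ : a < b), LinearMap.ker (pE a b).toLinearMap

/-- the multiplicity -/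
noncomputable def hw (s : (ℕ × ℕ) →₀ ℕ) (μ : Mon) : ℕ := finrank ℂ (pHW s μ)

/-- a weight in `n` variables as a monomial -/
noncomputable def toMon {n : ℕ} (μ : Fin n →₀ ℕ) : Mon := μ.mapDomain Fin.val

/-- the character of a shape in `n` variables -/
noncomputable def chi (n : ℕ) (s : (ℕ × ℕ) →₀ ℕ) : MvPolynomial (Fin n) ℤ :=
  s.prod fun v p => GG n v.2 p

end Model

/-! ### The tensor space -/

section Tensor

variable {Ω : Type} [Fintype Ω] [DecidableEq Ω] {n : ℕ}

/-- the tensor space, as functions on colourings -/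
abbrev TT (Ω : Type) (n : ℕ) := EuclideanSpace ℂ (Ω → Fin n)

/-- Kronecker product of a family of matrices -/
def kr (M : Ω → Matrix (Fin n) (Fin n) ℂ) : Matrix (Ω → Fin n) (Ω → Fin n) ℂ :=
  Matrix.of fun f g => ∏ ω, M ω (f ω) (g ω)

variable (Ω) in
/-- the action of the elementary matrices on the tensor space -/
noncomputable def tE (a b : Fin n) : TT Ω n →ₗ[ℂ] TT Ω n :=
  ∑ ω : Ω, Matrix.toEuclideanLin (kr (Function.update 1 ω (Matrix.single a b 1)))

variable {ι : Type} [Fintype ι] [DecidableEq ι]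

/-- content of row `i` of a colouring -/
noncomputable def cont (row : Ω → ι) (f : Ω → Fin n) (i : ι) : Mon :=
  ∑ ω ∈ Finset.univ.filter (fun ω => row ω = i), Finsupp.single (f ω : ℕ) 1

/-- the monomial of `PM` attached to a colouring -/
noncomputable def colMon (row : Ω → ι) (lab : ι → ℕ) (f : Ω → Fin n) : (ℕ × Mon) →₀ ℕ :=
  ∑ i, Finsupp.single (lab i, cont row f i) 1

variable (n) in
/-- the map from the tensor space to the polynomial model -/
noncomputable def theta (row : Ω → ι) (lab : ι → ℕ) : TT Ω n →ₗ[ℂ] PM :=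
  (EuclideanSpace.basisFun (Ω → Fin n) ℂ).toBasis.constr ℂ
    fun f => MvPolynomial.monomial (colMon row lab f) 1

/-- the shape of a labelled partition into rows -/
noncomputable def rowShp (row : Ω → ι) (lab : ι → ℕ) : (ℕ × ℕ) →₀ ℕ :=
  ∑ i, Finsupp.single (lab i, (Finset.univ.filter fun ω => row ω = i).card) 1

end Tensor

end Vale.Agent.P181
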